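import Vale.Agent.P195.CE.Final
import Vale.Agent.P195.CE.Base

/-!
A finite-dimensional algebra with a nonprojective module without higher self-extensions and without
higher extensions into the algebra.
-/

namespace Vale.Agent.Results.P195.Counterexample

open CategoryTheory

theorem result (k : Type) [Field k] [CharZero k] :
    ∃ (R : Type) (_ : Ring R) (_ : Algebra k R) (M : Type) (_ : AddCommGroup M) (_ : Module R M),
      Module.Finite k R ∧ Module.Finite R M ∧
      (∀ i, 1 ≤ i →
        Subsingleton (Abelian.Ext.{0} (ModuleCat.of R M) (ModuleCat.of R M) i) ∧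
        Subsingleton (Abelian.Ext.{0} (ModuleCat.of R M) (ModuleCat.of R R) i)) ∧
      ¬ Module.Projective R M := by
  obtain ⟨M, iA, iM, h1, h2, h3⟩ :=
    Vale.Agent.P195.CE.exists_counterexample (Vale.Agent.P195.CE.homData_zero (k := k))
  exact ⟨Vale.Agent.P195.CE.Rt k, inferInstance, inferInstance, M, iA, iM, inferInstance, h1, h2, h3⟩

end Vale.Agent.Results.P195.Counterexample
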