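import Vale.Agent.P195.ExtPart

/-!
The Auslander–Reiten conjecture for Artin algebras with radical cube zero.
-/

universe u v

namespace Vale.Agent.Results.P195.RadicalCubeZero

open CategoryTheory

theorem result (k : Type v) (R : Type u) [CommRing k] [IsArtinianRing k] [Ring R] [Algebra k R]
    [Module.Finite k R] (hR : Ring.jacobson R ^ 3 = ⊥)
    (M : Type u) [AddCommGroup M] [Module R M] [Module.Finite R M]
    (hM : ∀ i : ℕ, 1 ≤ i →
      Subsingleton (Abelian.Ext.{u} (ModuleCat.of R M) (ModuleCat.of R M) i) ∧
      Subsingleton (Abelian.Ext.{u} (ModuleCat.of R M) (ModuleCat.of R R) i)) :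
    Module.Projective R M := by
  have : IsArtinianRing R := IsArtinianRing.of_finite k R
  exact Vale.Agent.P195.projective_of_ext (k := k) M hR
    (fun i => (hM (i + 1) (Nat.succ_pos i)).1) (fun i => (hM (i + 1) (Nat.succ_pos i)).2)

end Vale.Agent.Results.P195.RadicalCubeZero
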